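import Mathlib
import Vale.Agent.P136.Full.Defs

/-!
# P136: calculus of the coordinate derivatives
-/

open scoped ContDiff Topology

namespace Vale.Agent.P136.Full

noncomputable section

variable {E F : Type*} [NormedAddCommGroup E] [NormedSpace ℂ E] [NormedAddCommGroup F]
  [NormedSpace ℂ F] {f g : Space → E} {a b : Space → ℂ}

theorem contDiff_pd (hf : ContDiff ℝ ∞ f) (i : Fin 3) : ContDiff ℝ ∞ (pd i f) :=
  (hf.fderiv_right (m := ∞) (by simp)).clm_apply contDiff_const

theorem contDiff_Dth (hf : ContDiff ℝ ∞ f) (θ : C3) : ContDiff ℝ ∞ (Dth θ f) :=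
  ContDiff.sum fun i _ => (contDiff_pd hf i).const_smul (θ i)

theorem pd_const (i : Fin 3) (c : E) (x : Space) : pd i (fun _ => c) x = 0 := by simp [pd]

theorem pd_congr {x : Space} (h : f =ᶠ[𝓝 x] g) (i : Fin 3) : pd i f x = pd i g x := by
  simp [pd, h.fderiv_eq]

theorem pd_add {x : Space} (i : Fin 3) (hf : DifferentiableAt ℝ f x) (hg : DifferentiableAt ℝ g x) :
    pd i (fun y => f y + g y) x = pd i f x + pd i g x := by
  simp [pd, show (fun y => f y + g y) = f + g from rfl, fderiv_add hf hg]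

theorem pd_sub {x : Space} (i : Fin 3) (hf : DifferentiableAt ℝ f x) (hg : DifferentiableAt ℝ g x) :
    pd i (fun y => f y - g y) x = pd i f x - pd i g x := by
  simp [pd, show (fun y => f y - g y) = f - g from rfl, fderiv_sub hf hg]

theorem pd_neg (i : Fin 3) (x : Space) : pd i (fun y => -f y) x = -pd i f x := by
  simp [pd, show (fun y => -f y) = -f from rfl, fderiv_neg]

theorem pd_sum {ι : Type*} (s : Finset ι) {F : ι → Space → E} {x : Space} (i : Fin 3)
    (h : ∀ k ∈ s, DifferentiableAt ℝ (F k) x) :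
    pd i (fun y => ∑ k ∈ s, F k y) x = ∑ k ∈ s, pd i (F k) x := by
  simp [pd, fderiv_fun_sum h]

theorem pd_smul {x : Space} (i : Fin 3) (ha : DifferentiableAt ℝ a x) (hf : DifferentiableAt ℝ f x) :
    pd i (fun y => a y • f y) x = pd i a x • f x + a x • pd i f x := by
  simp [pd, fderiv_fun_smul ha hf, add_comm]

theorem pd_mul {x : Space} (i : Fin 3) (ha : DifferentiableAt ℝ a x) (hb : DifferentiableAt ℝ b x) :
    pd i (fun y => a y * b y) x = pd i a x * b x + a x * pd i b x :=
  pd_smul i ha hb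

theorem pd_const_smul {x : Space} (i : Fin 3) (c : ℂ) (hf : DifferentiableAt ℝ f x) :
    pd i (fun y => c • f y) x = c • pd i f x := by
  simp [pd, fderiv_fun_const_smul hf c]

theorem pd_smul_const {x : Space} (i : Fin 3) (v : E) (ha : DifferentiableAt ℝ a x) :
    pd i (fun y => a y • v) x = pd i a x • v := by
  rw [pd_smul i ha (differentiableAt_const v), pd_const, smul_zero, add_zero]

theorem pd_clm {x : Space} (i : Fin 3) (L : E →L[ℂ] F) (hf : DifferentiableAt ℝ f x) :
    pd i (fun y => L (f y)) x = L (pd i f x) := by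
  have h := ((L.restrictScalars ℝ).hasFDerivAt.comp x hf.hasFDerivAt).fderiv
  simp only [pd]
  rw [show (fun y => L (f y)) = (L.restrictScalars ℝ) ∘ f from rfl, h]
  simp

theorem pd_apply {u : Space → C3} {x : Space} (i k : Fin 3) (hu : DifferentiableAt ℝ u x) :
    pd i (fun y => u y k) x = pd i u x k :=
  pd_clm i (ContinuousLinearMap.proj (R := ℂ) (φ := fun _ : Fin 3 => ℂ) k) hu

theorem pd_fst {U : Space → Amp} {x : Space} (i : Fin 3) (hU : DifferentiableAt ℝ U x) :
    pd i (fun y => (U y).1) x = (pd i U x).1 :=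
  pd_clm i (ContinuousLinearMap.fst ℂ C3 ℂ) hU

theorem pd_snd {U : Space → Amp} {x : Space} (i : Fin 3) (hU : DifferentiableAt ℝ U x) :
    pd i (fun y => (U y).2) x = (pd i U x).2 :=
  pd_clm i (ContinuousLinearMap.snd ℂ C3 ℂ) hU

theorem pd_inv {x : Space} (i : Fin 3) (ha : DifferentiableAt ℝ a x) (h0 : a x ≠ 0) :
    pd i (fun y => (a y)⁻¹) x = -(pd i a x) / a x ^ 2 := by
  have h := ((hasDerivAt_inv h0).comp_hasFDerivAt x ha.hasFDerivAt).fderiv
  simp only [pd]
  rw [show (fun y => (a y)⁻¹) = (fun z : ℂ => z⁻¹) ∘ a from rfl, h]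
  simp only [smul_apply, smul_eq_mul]
  field_simp

theorem pd_comm {x : Space} (hf : ContDiff ℝ ∞ f) (i j : Fin 3) :
    pd i (pd j f) x = pd j (pd i f) x := by
  have hd : DifferentiableAt ℝ (fderiv ℝ f) x :=
    ((hf.fderiv_right (m := ∞) (by simp)).differentiable (by simp)) x
  have key : ∀ i j : Fin 3, pd i (pd j f) x =
      fderiv ℝ (fderiv ℝ f) x (Pi.single i 1) (Pi.single j 1) := by
    intro i j
    simp only [pd]
    change fderiv ℝ (fun y => fderiv ℝ f y (Pi.single j 1)) x (Pi.single i 1) = _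
    rw [fderiv_clm_apply hd (differentiableAt_const _)]
    simp
  rw [key, key]
  exact (hf.contDiffAt.isSymmSndFDerivAt (by simp only [minSmoothness_of_isRCLikeNormedField]; exact WithTop.coe_le_coe.2 le_top)).eq _ _

theorem pd_ofReal {r : Space → ℝ} {x : Space} (i : Fin 3) (hr : DifferentiableAt ℝ r x) :
    pd i (fun y => (r y : ℂ)) x = ((fderiv ℝ r x (Pi.single i 1) : ℝ) : ℂ) := by
  have h := (Complex.ofRealCLM.hasFDerivAt.comp x hr.hasFDerivAt).fderiv
  simp only [pd]
  rw [show (fun y => (r y : ℂ)) = Complex.ofRealCLM ∘ r from rfl, h]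
  simp

/-- `θ · ∇` is additive. -/
theorem Dth_add {x : Space} (θ : C3) (hf : DifferentiableAt ℝ f x) (hg : DifferentiableAt ℝ g x) :
    Dth θ (fun y => f y + g y) x = Dth θ f x + Dth θ g x := by
  simp [Dth, pd_add _ hf hg, Finset.sum_add_distrib]

theorem Dth_sub {x : Space} (θ : C3) (hf : DifferentiableAt ℝ f x) (hg : DifferentiableAt ℝ g x) :
    Dth θ (fun y => f y - g y) x = Dth θ f x - Dth θ g x := by
  simp [Dth, pd_sub _ hf hg, smul_sub, Finset.sum_sub_distrib]

theorem Dth_neg (θ : C3) (x : Space) : Dth θ (fun y => -f y) x = -Dth θ f x := by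
  simp [Dth, pd_neg]

theorem Dth_smul {x : Space} (θ : C3) (ha : DifferentiableAt ℝ a x) (hf : DifferentiableAt ℝ f x) :
    Dth θ (fun y => a y • f y) x = Dth θ a x • f x + a x • Dth θ f x := by
  simp only [Dth, pd_smul _ ha hf, smul_add, Finset.sum_add_distrib, Finset.sum_smul,
    Finset.smul_sum, smul_smul, smul_eq_mul, mul_comm]

theorem Dth_mul {x : Space} (θ : C3) (ha : DifferentiableAt ℝ a x) (hb : DifferentiableAt ℝ b x) :
    Dth θ (fun y => a y * b y) x = Dth θ a x * b x + a x * Dth θ b x :=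
  Dth_smul θ ha hb

theorem Dth_const_smul {x : Space} (θ : C3) (c : ℂ) (hf : DifferentiableAt ℝ f x) :
    Dth θ (fun y => c • f y) x = c • Dth θ f x := by
  simp [Dth, pd_const_smul _ _ hf, Finset.smul_sum, smul_comm c]

theorem Dth_smul_vec (c : ℂ) (θ : C3) (x : Space) : Dth (c • θ) f x = c • Dth θ f x := by
  simp [Dth, Finset.smul_sum, smul_smul]

theorem Dth_clm {x : Space} (θ : C3) (L : E →L[ℂ] F) (hf : DifferentiableAt ℝ f x) :
    Dth θ (fun y => L (f y)) x = L (Dth θ f x) := by
  simp [Dth, pd_clm _ L hf]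

theorem Dth_fst {U : Space → Amp} {x : Space} (θ : C3) (hU : DifferentiableAt ℝ U x) :
    Dth θ (fun y => (U y).1) x = (Dth θ U x).1 :=
  Dth_clm θ (ContinuousLinearMap.fst ℂ C3 ℂ) hU

theorem Dth_snd {U : Space → Amp} {x : Space} (θ : C3) (hU : DifferentiableAt ℝ U x) :
    Dth θ (fun y => (U y).2) x = (Dth θ U x).2 :=
  Dth_clm θ (ContinuousLinearMap.snd ℂ C3 ℂ) hU

theorem Dth_apply {u : Space → C3} {x : Space} (θ : C3) (k : Fin 3) (hu : DifferentiableAt ℝ u x) :
    Dth θ (fun y => u y k) x = Dth θ u x k :=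
  Dth_clm θ (ContinuousLinearMap.proj (R := ℂ) (φ := fun _ : Fin 3 => ℂ) k) hu

/-! ### The dot products -/

theorem bdot_three (a b : C3) : bdot a b = a 0 * b 0 + a 1 * b 1 + a 2 * b 2 := by
  simp [bdot, Fin.sum_univ_three]

theorem bdot_comm (a b : C3) : bdot a b = bdot b a := by simp [bdot, mul_comm]

theorem bdot_add_left (a a' b : C3) : bdot (a + a') b = bdot a b + bdot a' b := by
  simp [bdot, add_mul, Finset.sum_add_distrib]

theorem bdot_add_right (a b b' : C3) : bdot a (b + b') = bdot a b + bdot a b' := by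
  simp [bdot, mul_add, Finset.sum_add_distrib]

theorem bdot_sub_right (a b b' : C3) : bdot a (b - b') = bdot a b - bdot a b' := by
  simp [bdot, mul_sub, Finset.sum_sub_distrib]

theorem bdot_smul_left (c : ℂ) (a b : C3) : bdot (c • a) b = c * bdot a b := by
  simp [bdot, Finset.mul_sum, mul_assoc]

theorem bdot_smul_right (c : ℂ) (a b : C3) : bdot a (c • b) = c * bdot a b := by
  simp [bdot, Finset.mul_sum, mul_left_comm]

theorem bdot_zero_right (a : C3) : bdot a 0 = 0 := by simp [bdot]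

theorem bdot_zero_left (a : C3) : bdot 0 a = 0 := by simp [bdot]

end

end Vale.Agent.P136.Full
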