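import Mathlib
import Vale.Agent.P136.Full.Alg.Pd

/-!
# P136: smoothness and derivatives of the coefficient functions
-/

open scoped ContDiff Topology

namespace Vale.Agent.P136.Full

noncomputable section

namespace Moduli

variable (M : Moduli)

theorem A_pos (x : Space) : 0 < M.A x := by
  have := M.mu_pos x
  have := M.bulk_pos x
  unfold A; linarith

theorem A_add_mu_pos (x : Space) : 0 < M.A x + M.mu x := by linarith [M.A_pos x, M.mu_pos x]

theorem muC_ne (x : Space) : M.muC x ≠ 0 := Complex.ofReal_ne_zero.2 (M.mu_pos x).ne'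

theorem AC_ne (x : Space) : M.AC x ≠ 0 := Complex.ofReal_ne_zero.2 (M.A_pos x).ne'

theorem AC_add_muC_ne (x : Space) : M.AC x + M.muC x ≠ 0 := by
  simp only [AC, muC, ← Complex.ofReal_add]
  exact Complex.ofReal_ne_zero.2 (M.A_add_mu_pos x).ne'

theorem sqC_ne (x : Space) : M.sqC x ≠ 0 :=
  Complex.ofReal_ne_zero.2 (Real.sqrt_pos.2 (M.mu_pos x)).ne'

theorem sqC_mul_sqC (x : Space) : M.sqC x * M.sqC x = M.muC x := by
  simp only [sqC, sq, muC, ← Complex.ofReal_mul, Real.mul_self_sqrt (M.mu_pos x).le]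

theorem mC_eq (x : Space) : M.mC x = (M.muC x)⁻¹ := by simp [mC, m, muC]

theorem nC_eq (x : Space) : M.nC x = (M.sqC x)⁻¹ := by simp [nC, n, sqC, sq]

theorem AC_eq (x : Space) : M.AC x = M.lamC x + M.muC x := by simp [AC, A, lamC, muC]

theorem cC_eq (x : Space) : M.cC x = M.AC x * M.sqC x / (M.AC x + M.muC x) := by
  simp [cC, c, AC, muC, sqC]

theorem contDiff_lamC : ContDiff ℝ ∞ M.lamC := Complex.ofRealCLM.contDiff.comp M.lam_smooth

theorem contDiff_muC : ContDiff ℝ ∞ M.muC := Complex.ofRealCLM.contDiff.comp M.mu_smooth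

theorem contDiff_AC : ContDiff ℝ ∞ M.AC :=
  Complex.ofRealCLM.contDiff.comp (M.lam_smooth.add M.mu_smooth)

theorem contDiff_sqC : ContDiff ℝ ∞ M.sqC :=
  Complex.ofRealCLM.contDiff.comp (M.mu_smooth.sqrt fun x => (M.mu_pos x).ne')

theorem contDiff_mC : ContDiff ℝ ∞ M.mC :=
  Complex.ofRealCLM.contDiff.comp (M.mu_smooth.inv fun x => (M.mu_pos x).ne')

theorem contDiff_nC : ContDiff ℝ ∞ M.nC :=
  Complex.ofRealCLM.contDiff.comp ((M.mu_smooth.sqrt fun x => (M.mu_pos x).ne').inv
    fun x => (Real.sqrt_pos.2 (M.mu_pos x)).ne')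

theorem contDiff_cC : ContDiff ℝ ∞ M.cC :=
  Complex.ofRealCLM.contDiff.comp (((M.lam_smooth.add M.mu_smooth).mul
    (M.mu_smooth.sqrt fun x => (M.mu_pos x).ne')).div ((M.lam_smooth.add M.mu_smooth).add M.mu_smooth)
      fun x => (M.A_add_mu_pos x).ne')

variable {M}

theorem differentiableAt_of {f : Space → ℂ} (h : ContDiff ℝ ∞ f) (x : Space) :
    DifferentiableAt ℝ f x := h.differentiable (by simp) x

theorem pd_mC (i : Fin 3) (x : Space) : pd i M.mC x = -(pd i M.muC x) / M.muC x ^ 2 := by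
  rw [show M.mC = fun y => (M.muC y)⁻¹ from funext M.mC_eq,
    pd_inv i (differentiableAt_of M.contDiff_muC x) (M.muC_ne x)]

theorem pd_sqC (i : Fin 3) (x : Space) : pd i M.sqC x = pd i M.muC x / (2 * M.sqC x) := by
  have hd := differentiableAt_of M.contDiff_sqC x
  have h : pd i (fun y => M.sqC y * M.sqC y) x = pd i M.muC x := by
    rw [show (fun y => M.sqC y * M.sqC y) = M.muC from funext M.sqC_mul_sqC]
  rw [pd_mul i hd hd] at h
  rw [eq_div_iff (mul_ne_zero two_ne_zero (M.sqC_ne x)), ← h]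
  ring

theorem pd_nC (i : Fin 3) (x : Space) :
    pd i M.nC x = -(pd i M.muC x) / (2 * M.muC x * M.sqC x) := by
  rw [show M.nC = fun y => (M.sqC y)⁻¹ from funext M.nC_eq,
    pd_inv i (differentiableAt_of M.contDiff_sqC x) (M.sqC_ne x), pd_sqC, ← M.sqC_mul_sqC x]
  have := M.sqC_ne x
  field_simp

theorem pd_AC (i : Fin 3) (x : Space) : pd i M.AC x = pd i M.lamC x + pd i M.muC x := by
  rw [show M.AC = fun y => M.lamC y + M.muC y from funext M.AC_eq,
    pd_add i (differentiableAt_of M.contDiff_lamC x) (differentiableAt_of M.contDiff_muC x)]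

end Moduli

end

end Vale.Agent.P136.Full
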