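import Mathlib
import Vale.Agent.P136.Full.Alg.Coef

/-!
# P136: `amatT` is the transpose of `amat`, and the Leibniz rule along `θ`
-/

open scoped ContDiff Topology

namespace Vale.Agent.P136.Full

noncomputable section

namespace Moduli

variable (M : Moduli)

/-- `amatT` is the transpose of `amat`. -/
theorem dot4_amatT (θ : C3) (x : Space) (η Y : Amp) :
    dot4 (M.amatT θ x η) Y = dot4 η (M.amat θ x Y) := by
  simp only [amat, amatT, dot4, hessVec, grad, bdot_three, Fin.sum_univ_three, Pi.add_apply,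
    Pi.sub_apply, Pi.smul_apply, smul_eq_mul]
  ring

theorem amat_add (θ : C3) (x : Space) (Y Y' : Amp) :
    M.amat θ x (Y + Y') = M.amat θ x Y + M.amat θ x Y' := by
  simp only [amat, Prod.mk_add_mk, Prod.fst_add, Prod.snd_add, bdot_add_left, bdot_add_right,
    Prod.mk.injEq]
  refine ⟨?_, by ring⟩
  ext i
  simp only [Pi.add_apply, Pi.sub_apply, Pi.smul_apply, smul_eq_mul]
  ring

theorem amat_smul (θ : C3) (x : Space) (c : ℂ) (Y : Amp) :
    M.amat θ x (c • Y) = c • M.amat θ x Y := by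
  simp only [amat, Prod.smul_mk, Prod.smul_fst, Prod.smul_snd, bdot_smul_left, bdot_smul_right,
    smul_eq_mul, Prod.mk.injEq]
  refine ⟨?_, by ring⟩
  ext i
  simp only [Pi.sub_apply, Pi.smul_apply, smul_eq_mul]
  ring

theorem amatT_add (θ : C3) (x : Space) (Y Y' : Amp) :
    M.amatT θ x (Y + Y') = M.amatT θ x Y + M.amatT θ x Y' := by
  simp only [amatT, Prod.mk_add_mk, Prod.fst_add, Prod.snd_add, bdot_add_right, Prod.mk.injEq]
  refine ⟨?_, by ring⟩
  ext i
  simp only [Pi.add_apply, Pi.sub_apply, Pi.smul_apply, smul_eq_mul]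
  ring

theorem amatT_smul (θ : C3) (x : Space) (c : ℂ) (Y : Amp) :
    M.amatT θ x (c • Y) = c • M.amatT θ x Y := by
  simp only [amatT, Prod.smul_mk, Prod.smul_fst, Prod.smul_snd, bdot_smul_right,
    smul_eq_mul, Prod.mk.injEq]
  refine ⟨?_, by ring⟩
  ext i
  simp only [Pi.add_apply, Pi.sub_apply, Pi.smul_apply, smul_eq_mul]
  ring

/-- `amat` preserves orthogonality to `θ`, up to a scalar factor. -/
theorem bdot_amat {θ : C3} (hθ : bdot θ θ = 0) (x : Space) (Y : Amp) :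
    bdot θ (M.amat θ x Y).1 = -(Dth θ M.muC x / (2 * M.muC x)) * bdot θ Y.1 := by
  simp only [amat, bdot_sub_right, bdot_smul_right, hθ, mul_zero, sub_zero]

end Moduli

theorem dot4_add_left (a a' b : Amp) : dot4 (a + a') b = dot4 a b + dot4 a' b := by
  simp only [dot4, Prod.fst_add, Prod.snd_add, bdot_add_left]; ring

theorem dot4_add_right (a b b' : Amp) : dot4 a (b + b') = dot4 a b + dot4 a b' := by
  simp only [dot4, Prod.fst_add, Prod.snd_add, bdot_add_right]; ring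

theorem dot4_sub_right (a b b' : Amp) : dot4 a (b - b') = dot4 a b - dot4 a b' := by
  simp only [dot4, Prod.fst_sub, Prod.snd_sub, bdot_sub_right]; ring

theorem dot4_smul_left (c : ℂ) (a b : Amp) : dot4 (c • a) b = c * dot4 a b := by
  simp only [dot4, Prod.smul_fst, Prod.smul_snd, bdot_smul_left, smul_eq_mul]; ring

theorem dot4_smul_right (c : ℂ) (a b : Amp) : dot4 a (c • b) = c * dot4 a b := by
  simp only [dot4, Prod.smul_fst, Prod.smul_snd, bdot_smul_right, smul_eq_mul]; ring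

theorem contDiff_dot4 {ξ X : Space → Amp} (hξ : ContDiff ℝ ∞ ξ) (hX : ContDiff ℝ ∞ X) :
    ContDiff ℝ ∞ fun y => dot4 (ξ y) (X y) := by
  simp only [dot4, bdot, Fin.sum_univ_three]
  fun_prop

/-- Leibniz rule for the pairing. -/
theorem Dth_dot4 {ξ X : Space → Amp} {x : Space} (θ : C3) (hξ : DifferentiableAt ℝ ξ x)
    (hX : DifferentiableAt ℝ X x) :
    Dth θ (fun y => dot4 (ξ y) (X y)) x = dot4 (Dth θ ξ x) (X x) + dot4 (ξ x) (Dth θ X x) := by
  have h1 : DifferentiableAt ℝ (fun y => (ξ y).1) x := hξ.fst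
  have h2 : DifferentiableAt ℝ (fun y => (X y).1) x := hX.fst
  have c1 : ∀ k : Fin 3, DifferentiableAt ℝ (fun y => (ξ y).1 k) x := differentiableAt_pi.1 h1
  have c2 : ∀ k : Fin 3, DifferentiableAt ℝ (fun y => (X y).1 k) x := differentiableAt_pi.1 h2
  simp only [dot4, bdot_three]
  rw [Dth_add θ ((((c1 0).fun_mul (c2 0)).fun_add ((c1 1).fun_mul (c2 1))).fun_add ((c1 2).fun_mul (c2 2)))
      (hξ.snd.fun_mul hX.snd),
    Dth_add θ (((c1 0).fun_mul (c2 0)).fun_add ((c1 1).fun_mul (c2 1))) ((c1 2).fun_mul (c2 2)),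
    Dth_add θ ((c1 0).fun_mul (c2 0)) ((c1 1).fun_mul (c2 1)),
    Dth_mul θ (c1 0) (c2 0), Dth_mul θ (c1 1) (c2 1), Dth_mul θ (c1 2) (c2 2),
    Dth_mul θ hξ.snd hX.snd, Dth_apply θ 0 h1, Dth_apply θ 1 h1, Dth_apply θ 2 h1,
    Dth_apply θ 0 h2, Dth_apply θ 1 h2, Dth_apply θ 2 h2, Dth_fst θ hξ, Dth_fst θ hX,
    Dth_snd θ hξ, Dth_snd θ hX]
  ring

/-- The adjoint identity of the amplitude systems. -/
theorem Moduli.Dth_dot4_amat (M : Moduli) {ξ X : Space → Amp} {x : Space} (θ : C3)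
    (hξ : DifferentiableAt ℝ ξ x) (hX : DifferentiableAt ℝ X x) :
    Dth θ (fun y => dot4 (ξ y) (X y)) x =
      dot4 (Dth θ ξ x + M.amatT θ x (ξ x)) (X x) + dot4 (ξ x) (Dth θ X x - M.amat θ x (X x)) := by
  rw [Dth_dot4 θ hξ hX, dot4_add_left, dot4_sub_right, M.dot4_amatT]
  ring

end

end Vale.Agent.P136.Full
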