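import Mathlib
import Vale.Agent.P136.Full.Alg.Adjoint

/-!
# P136: the amplitude systems as continuous linear maps depending smoothly on parameters
-/

open scoped ContDiff Topology

namespace Vale.Agent.P136.Full

noncomputable section

variable {P : Type*} [NormedAddCommGroup P] [NormedSpace ℝ P]

/-- A family of linear maps of amplitudes is smooth if its values are. -/
theorem contDiff_ampCLM {L : P → Amp →L[ℂ] Amp} (h : ∀ Y, ContDiff ℝ ∞ fun p => L p Y) :
    ContDiff ℝ ∞ L := by
  let c : Fin 3 → (Amp →L[ℂ] ℂ) := fun k =>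
    (ContinuousLinearMap.proj k).comp (ContinuousLinearMap.fst ℂ C3 ℂ)
  have e : L = fun p => (∑ k, (c k).smulRight (L p (Pi.single k 1, 0))) +
      (ContinuousLinearMap.snd ℂ C3 ℂ).smulRight (L p (0, 1)) := by
    funext p
    refine ContinuousLinearMap.ext fun Y => ?_
    have hY : Y = (∑ k, Y.1 k • ((Pi.single k 1, 0) : Amp)) + Y.2 • ((0, 1) : Amp) := by
      refine Prod.ext ?_ ?_
      · funext i
        fin_cases i <;> simp [Fin.sum_univ_three]
      · simp [Fin.sum_univ_three]
    conv_lhs => rw [hY, map_add, map_sum]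
    simp only [map_smul]
    simp [c, Fin.sum_univ_three]
  rw [e]
  have hs : ∀ f : Amp →L[ℂ] ℂ, ∀ v : Amp, ContDiff ℝ ∞ fun p => f.smulRight (L p v) := fun f v =>
    (((ContinuousLinearMap.smulRightL ℂ Amp Amp) f).restrictScalars ℝ).contDiff.comp (h v)
  exact (ContDiff.sum fun k _ => hs _ _).add (hs _ _)

theorem contDiff_pdC {f : Space → ℂ} (hf : ContDiff ℝ ∞ f) (i : Fin 3) {g : P → Space}
    (hg : ContDiff ℝ ∞ g) : ContDiff ℝ ∞ fun p => pd i f (g p) :=
  (contDiff_pd hf i).comp hg

namespace Moduli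

variable (M : Moduli)

/-- `amat` as a continuous linear map. -/
def amatL (θ : C3) (x : Space) : Amp →L[ℂ] Amp :=
  LinearMap.toContinuousLinearMap
    { toFun := M.amat θ x
      map_add' := M.amat_add θ x
      map_smul' := M.amat_smul θ x }

/-- `amatT` as a continuous linear map. -/
def amatTL (θ : C3) (x : Space) : Amp →L[ℂ] Amp :=
  LinearMap.toContinuousLinearMap
    { toFun := M.amatT θ x
      map_add' := M.amatT_add θ x
      map_smul' := M.amatT_smul θ x }

@[simp]
theorem amatL_apply (θ : C3) (x : Space) (Y : Amp) : M.amatL θ x Y = M.amat θ x Y := rfl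

@[simp]
theorem amatTL_apply (θ : C3) (x : Space) (Y : Amp) : M.amatTL θ x Y = M.amatT θ x Y := rfl

variable {θ : P → C3} {g : P → Space}

theorem contDiff_amatL (hθ : ContDiff ℝ ∞ θ) (hg : ContDiff ℝ ∞ g) :
    ContDiff ℝ ∞ fun p => M.amatL (θ p) (g p) := by
  refine contDiff_ampCLM fun Y => ?_
  have h1 := fun i => contDiff_pdC M.contDiff_muC i hg
  have h2 := fun i => contDiff_pdC M.contDiff_AC i hg
  have h3 := fun i j => contDiff_pdC (contDiff_pd M.contDiff_mC i) j hg
  have h4 := M.contDiff_muC.comp hg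
  have h5 := M.contDiff_AC.comp hg
  have n1 : ∀ p, 2 * M.muC (g p) ≠ 0 := fun p => mul_ne_zero two_ne_zero (M.muC_ne _)
  have n2 : ∀ p, M.AC (g p) + M.muC (g p) ≠ 0 := fun p => M.AC_add_muC_ne _
  have n3 : ∀ p, M.muC (g p) ≠ 0 := fun p => M.muC_ne _
  simp only [amatL_apply, amat, Dth, bdot, grad, hessVec, hess, Fin.sum_univ_three, smul_eq_mul,
    Function.comp_def, div_eq_mul_inv] at *
  fun_prop (disch := assumption)

theorem contDiff_amatTL (hθ : ContDiff ℝ ∞ θ) (hg : ContDiff ℝ ∞ g) :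
    ContDiff ℝ ∞ fun p => M.amatTL (θ p) (g p) := by
  refine contDiff_ampCLM fun Y => ?_
  have h1 := fun i => contDiff_pdC M.contDiff_muC i hg
  have h2 := fun i => contDiff_pdC M.contDiff_AC i hg
  have h3 := fun i j => contDiff_pdC (contDiff_pd M.contDiff_mC i) j hg
  have h4 := M.contDiff_muC.comp hg
  have h5 := M.contDiff_AC.comp hg
  have n1 : ∀ p, 2 * M.muC (g p) ≠ 0 := fun p => mul_ne_zero two_ne_zero (M.muC_ne _)
  have n2 : ∀ p, M.AC (g p) + M.muC (g p) ≠ 0 := fun p => M.AC_add_muC_ne _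
  have n3 : ∀ p, M.muC (g p) ≠ 0 := fun p => M.muC_ne _
  have h6 : ContDiff ℝ ∞ fun p => grad M.muC (g p) := contDiff_pi.2 fun i => h1 i
  have h7 : ContDiff ℝ ∞ fun p => hessVec M.mC (g p) (θ p) := contDiff_pi.2 fun i => by
    simp only [hessVec, hess, Fin.sum_univ_three]
    fun_prop
  simp only [amatTL_apply, amatT, Dth, bdot, Fin.sum_univ_three, smul_eq_mul,
    Function.comp_def, div_eq_mul_inv] at *
  fun_prop (disch := assumption)

end Moduli

theorem contDiff_conic : ContDiff ℝ ∞ conic := by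
  have : ContDiff ℂ ∞ conic := by
    refine contDiff_pi.2 fun i => ?_
    fin_cases i <;> simp only [conic, Matrix.cons_val, Fin.zero_eta, Fin.mk_one, Fin.reduceFinMk] <;> fun_prop
  exact this.restrict_scalars ℝ

theorem contDiff_eps (a : Fin 2) : ContDiff ℝ ∞ (eps a) := by
  have : ContDiff ℂ ∞ (eps a) := by
    refine contDiff_pi.2 fun i => ?_
    fin_cases a <;> fin_cases i <;> simp [eps] <;> fun_prop
  exact this.restrict_scalars ℝ

end

end Vale.Agent.P136.Full
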