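import Mathlib
import Vale.Agent.P136.Full.Alg.Adjoint

/-!
# P136: the reduced system and the displacement map conjugated by an exponential
-/

open scoped ContDiff Topology

namespace Vale.Agent.P136.Full

noncomputable section

theorem contDiff_expo (θ : C3) (τ : ℝ) : ContDiff ℝ ∞ (expo θ τ) := by
  have h : ContDiff ℝ ∞ fun x : Space => (τ : ℂ) * phase θ x := by
    refine contDiff_const.mul (ContDiff.sum fun i _ => contDiff_const.mul ?_)
    exact Complex.ofRealCLM.contDiff.comp (contDiff_apply ℝ ℝ i)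
  exact Complex.contDiff_exp.comp h

theorem expo_ne_zero (θ : C3) (τ : ℝ) (x : Space) : expo θ τ x ≠ 0 := Complex.exp_ne_zero _

theorem pd_phase (θ : C3) (i : Fin 3) (x : Space) : pd i (phase θ) x = θ i := by
  have h : ∀ k : Fin 3, HasFDerivAt (fun y : Space => θ k * (y k : ℂ))
      (θ k • Complex.ofRealCLM.comp (ContinuousLinearMap.proj (R := ℝ) (φ := fun _ : Fin 3 => ℝ) k))
      x := fun k => (Complex.ofRealCLM.hasFDerivAt.comp x (hasFDerivAt_apply k x)).const_mul (θ k)
  have hs := (HasFDerivAt.fun_sum (u := Finset.univ) fun k _ => h k).fderiv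
  simp only [pd]
  rw [show phase θ = fun y : Space => ∑ k, θ k * (y k : ℂ) from rfl, hs]
  fin_cases i <;> simp [Fin.sum_univ_three]

theorem pd_expo (θ : C3) (τ : ℝ) (i : Fin 3) (x : Space) :
    pd i (expo θ τ) x = expo θ τ x * ((τ : ℂ) * θ i) := by
  have hp : DifferentiableAt ℝ (fun y : Space => (τ : ℂ) * phase θ y) x := by
    refine (differentiableAt_const _).fun_mul ?_
    unfold phase
    fun_prop
  have h1 : pd i (fun y => (τ : ℂ) * phase θ y) x = (τ : ℂ) * θ i := by
    have hph : DifferentiableAt ℝ (phase θ) x := by unfold phase; fun_prop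
    rw [pd_mul i (differentiableAt_const _) hph, pd_const, pd_phase]
    ring
  simp only [pd] at h1 ⊢
  rw [show expo θ τ = fun y => Complex.exp ((τ : ℂ) * phase θ y) from rfl, hp.hasFDerivAt.cexp.fderiv]
  simp only [smul_apply, smul_eq_mul, h1]

variable {E : Type*} [NormedAddCommGroup E] [NormedSpace ℂ E]

theorem pd_expo_smul (θ : C3) (τ : ℝ) (i : Fin 3) {f : Space → E} {x : Space}
    (hf : DifferentiableAt ℝ f x) :
    pd i (fun y => expo θ τ y • f y) x = expo θ τ x • (pd i f x + ((τ : ℂ) * θ i) • f x) := by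
  rw [pd_smul i ((contDiff_expo θ τ).differentiable (by simp) x) hf, pd_expo, smul_add, smul_smul,
    add_comm]

theorem pd_expo_mul (θ : C3) (τ : ℝ) (i : Fin 3) {f : Space → ℂ} {x : Space}
    (hf : DifferentiableAt ℝ f x) :
    pd i (fun y => expo θ τ y * f y) x = expo θ τ x * (pd i f x + ((τ : ℂ) * θ i) * f x) :=
  pd_expo_smul θ τ i hf

theorem grad_expo_mul (θ : C3) (τ : ℝ) {g : Space → ℂ} {x : Space} (hg : DifferentiableAt ℝ g x) :
    grad (fun y => expo θ τ y * g y) x = expo θ τ x • (grad g x + ((τ : ℂ) * g x) • θ) := by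
  ext i
  simp only [grad, pd_expo_mul θ τ i hg, Pi.smul_apply, Pi.add_apply, smul_eq_mul]
  ring

theorem divv_expo_smul (θ : C3) (τ : ℝ) {u : Space → C3} {x : Space} (hu : DifferentiableAt ℝ u x) :
    divv (fun y => expo θ τ y • u y) x = expo θ τ x * (divv u x + (τ : ℂ) * bdot θ (u x)) := by
  simp only [divv, Pi.smul_apply, smul_eq_mul, Fin.sum_univ_three, bdot_three,
    pd_expo_mul θ τ _ (differentiableAt_pi.1 hu _)]
  ring

theorem lap_expo_smul {θ : C3} (hθ : bdot θ θ = 0) (τ : ℝ) {f : Space → E} (hf : ContDiff ℝ ∞ f)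
    (x : Space) :
    lap (fun y => expo θ τ y • f y) x = expo θ τ x • (lap f x + (2 * (τ : ℂ)) • Dth θ f x) := by
  have key : ∀ i : Fin 3, pd i (pd i (fun y => expo θ τ y • f y)) x =
      expo θ τ x • (pd i (pd i f) x + (2 * (τ : ℂ) * θ i) • pd i f x +
        ((τ : ℂ) * τ * (θ i * θ i)) • f x) := by
    intro i
    rw [show pd i (fun y => expo θ τ y • f y) =
      fun y => expo θ τ y • (pd i f y + ((τ : ℂ) * θ i) • f y) from
        funext fun y => pd_expo_smul θ τ i (hf.differentiable (by simp) y)]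
    have hd : DifferentiableAt ℝ (pd i f) x := (contDiff_pd hf i).differentiable (by simp) x
    have hf' : DifferentiableAt ℝ f x := hf.differentiable (by simp) x
    rw [pd_expo_smul θ τ i (hd.fun_add (hf'.fun_const_smul _)), pd_add i hd (hf'.fun_const_smul _),
      pd_const_smul i _ hf']
    module
  simp only [lap, key]
  rw [← Finset.smul_sum, Finset.sum_add_distrib, Finset.sum_add_distrib, ← Finset.sum_smul,
    ← Finset.mul_sum, show ∑ i, θ i * θ i = 0 from hθ, mul_zero, zero_smul, add_zero]
  simp only [Dth, Finset.smul_sum, smul_smul]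

namespace Moduli

variable (M : Moduli)

/-- The displacement map conjugated by the exponential. -/
theorem disp_expo (θ : C3) (τ : ℝ) {U : Space → Amp} (hU : ContDiff ℝ ∞ U) (x : Space) :
    M.disp (fun y => expo θ τ y • U y) x = expo θ τ x • M.conjDisp θ τ U x := by
  have h2 : DifferentiableAt ℝ (fun y => (U y).2) x := (hU.differentiable (by simp) x).snd
  simp only [disp, conjDisp, Prod.smul_fst, Prod.smul_snd, smul_eq_mul, grad_expo_mul θ τ h2]
  module

/-- The reduced system conjugated by the exponential. -/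
theorem reduced_expo {θ : C3} (hθ : bdot θ θ = 0) (τ : ℝ) {U : Space → Amp} (hU : ContDiff ℝ ∞ U)
    (x : Space) :
    M.reduced (fun y => expo θ τ y • U y) x = expo θ τ x • M.conjReduced θ τ U x := by
  have h1 : ContDiff ℝ ∞ fun y => (U y).1 := hU.fst
  have h2 : ContDiff ℝ ∞ fun y => (U y).2 := hU.snd
  have e2 : lap (fun y => expo θ τ y * (U y).2) x =
      expo θ τ x * (lap (fun y => (U y).2) x + 2 * (τ : ℂ) * Dth θ (fun y => (U y).2) x) := by
    simpa using lap_expo_smul hθ τ h2 x
  simp only [reduced, conjReduced, transport, Prod.smul_fst, Prod.smul_snd, smul_eq_mul,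
    lap_expo_smul hθ τ h1, e2, divv_expo_smul θ τ (h1.differentiable (by simp) x),
    grad_expo_mul θ τ (h2.differentiable (by simp) x), Prod.smul_mk, Prod.mk_add_mk, Prod.mk.injEq]
  constructor
  · ext i
    simp only [hessVec, bdot_three, Fin.sum_univ_three, Pi.add_apply, Pi.sub_apply, Pi.smul_apply,
      smul_eq_mul]
    ring
  · simp only [bdot_three, Pi.smul_apply, smul_eq_mul]
    ring

end Moduli

end

end Vale.Agent.P136.Full
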