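import Mathlib
import Vale.Agent.P136.Full.Alg.Conj

/-!
# P136: the displacement of an amplitude solves the Lamé system with the source of the reduced system
-/

open scoped ContDiff Topology

namespace Vale.Agent.P136.Full

noncomputable section

attribute [local fun_prop] contDiff_pd

theorem pd_div {a b : Space → ℂ} {x : Space} (i : Fin 3) (ha : DifferentiableAt ℝ a x)
    (hb : DifferentiableAt ℝ b x) (h0 : b x ≠ 0) :
    pd i (fun y => a y / b y) x = (pd i a x * b x - a x * pd i b x) / b x ^ 2 := by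
  simp only [div_eq_mul_inv]
  rw [pd_mul i ha (hb.fun_inv h0), pd_inv i hb h0]
  field_simp
  ring

variable {a b : Space → ℂ}

theorem pdf_add (i : Fin 3) (ha : ContDiff ℝ ∞ a) (hb : ContDiff ℝ ∞ b) :
    pd i (fun y => a y + b y) = fun y => pd i a y + pd i b y :=
  funext fun y => pd_add i (ha.differentiable (by simp) y) (hb.differentiable (by simp) y)

theorem pdf_sub (i : Fin 3) (ha : ContDiff ℝ ∞ a) (hb : ContDiff ℝ ∞ b) :
    pd i (fun y => a y - b y) = fun y => pd i a y - pd i b y :=
  funext fun y => pd_sub i (ha.differentiable (by simp) y) (hb.differentiable (by simp) y)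

theorem pdf_mul (i : Fin 3) (ha : ContDiff ℝ ∞ a) (hb : ContDiff ℝ ∞ b) :
    pd i (fun y => a y * b y) = fun y => pd i a y * b y + a y * pd i b y :=
  funext fun y => pd_mul i (ha.differentiable (by simp) y) (hb.differentiable (by simp) y)

theorem pdf_div (i : Fin 3) (ha : ContDiff ℝ ∞ a) (hb : ContDiff ℝ ∞ b) (h0 : ∀ y, b y ≠ 0) :
    pd i (fun y => a y / b y) = fun y => (pd i a y * b y - a y * pd i b y) / b y ^ 2 :=
  funext fun y => pd_div i (ha.differentiable (by simp) y) (hb.differentiable (by simp) y) (h0 y)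

namespace Moduli

variable (M : Moduli)

theorem pd_cC (i : Fin 3) (x : Space) :
    pd i M.cC x = ((pd i M.AC x * M.sqC x + M.AC x * pd i M.sqC x) * (M.AC x + M.muC x) -
      M.AC x * M.sqC x * (pd i M.AC x + pd i M.muC x)) / (M.AC x + M.muC x) ^ 2 := by
  have hA := differentiableAt_of M.contDiff_AC x
  have hs := differentiableAt_of M.contDiff_sqC x
  have hm := differentiableAt_of M.contDiff_muC x
  rw [show M.cC = fun y => M.AC y * M.sqC y / (M.AC y + M.muC y) from funext M.cC_eq,
    pd_div i (hA.fun_mul hs) (hA.fun_add hm) (M.AC_add_muC_ne x), pd_mul i hA hs, pd_add i hA hm]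

set_option maxRecDepth 8000 in
/-- The reduction: `lame (disp U) = source (reduced U)`. -/
theorem lame_disp {U : Space → Amp} (hU : ContDiff ℝ ∞ U) (x : Space) :
    M.lame (M.disp U) x = M.source (M.reduced U) x := by
  have hw : ∀ k, ContDiff ℝ ∞ fun y => (U y).1 k := fun k => contDiff_pi.1 hU.fst k
  have hg : ContDiff ℝ ∞ fun y => (U y).2 := hU.snd
  have hn := M.contDiff_nC
  have hm := M.contDiff_mC
  have hA := M.contDiff_AC
  have hmu := M.contDiff_muC
  have hs := M.contDiff_sqC
  have hc := M.contDiff_cC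
  ext i
  set g : Space → ℂ := fun y => (U y).2 with hgdef
  set w : Fin 3 → Space → ℂ := fun k y => (U y).1 k with hwdef
  have d : ∀ {f : Space → ℂ}, ContDiff ℝ ∞ f → ∀ y, DifferentiableAt ℝ f y :=
    fun h y => h.differentiable (by simp) y
  have p := @contDiff_pd ℂ _ _
  have u1 : ∀ j k, pd j (fun y => M.disp U y k) = fun y =>
      pd j M.nC y * w k y + M.nC y * pd j (w k) y + (pd j M.mC y * pd k g y +
        M.mC y * pd j (pd k g) y) - (pd j g y * pd k M.mC y + g y * pd j (pd k M.mC) y) := by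
    intro j k
    funext y
    have e : (fun y => M.disp U y k) =
        fun y => M.nC y * w k y + M.mC y * pd k g y - g y * pd k M.mC y := by
      funext y
      simp only [disp, grad, Pi.sub_apply, Pi.add_apply, Pi.smul_apply, smul_eq_mul, hgdef, hwdef]
    rw [e, pd_sub j (((d hn y).fun_mul (d (hw k) y)).fun_add ((d hm y).fun_mul (d (p hg k) y)))
      ((d hg y).fun_mul (d (p hm k) y)), pd_add j ((d hn y).fun_mul (d (hw k) y))
      ((d hm y).fun_mul (d (p hg k) y)), pd_mul j (d hn y) (d (hw k) y),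
      pd_mul j (d hm y) (d (p hg k) y), pd_mul j (d hg y) (d (p hm k) y)]
  have hdiv : divv (M.disp U) = fun y => ∑ k, pd k (fun z => M.disp U z k) y := rfl
  have hFg : (fun y => (M.reduced U y).2) = fun y => lap g y + M.cC y * divv (fun z => (U z).1) y +
      (M.muC y / (M.AC y + M.muC y)) * ((M.AC y - 2 * M.muC y) * bdot (grad M.nC y) (U y).1 +
        (M.muC y - M.AC y) * lap M.mC y * g y) := rfl
  simp only [lame, source, Pi.add_apply, Pi.smul_apply, smul_eq_mul, grad, hFg, hdiv, u1]
  simp only [reduced, lap, divv, hessVec, hess, grad, bdot_three, Fin.sum_univ_three, u1,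
    Pi.add_apply, Pi.sub_apply, Pi.smul_apply, smul_eq_mul, ← hgdef]
  have wk : ∀ k y, (U y).1 k = w k y := fun _ _ => rfl
  have gk : ∀ y, (U y).2 = g y := fun _ => rfl
  have hv : ∀ a b, pd a (pd b fun y => (U y).1) x i = pd a (pd b (w i)) x := by
    intro a b
    rw [← pd_apply a i ((contDiff_pd hU.fst b).differentiable (by simp) x)]
    exact congrArg (fun f => pd a f x)
      (funext fun y => (pd_apply b i (hU.fst.differentiable (by simp) y)).symm)
  have hlap : lap M.mC = fun y => pd 0 (pd 0 M.mC) y + pd 1 (pd 1 M.mC) y + pd 2 (pd 2 M.mC) y :=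
    funext fun y => Fin.sum_univ_three _
  have heta : ∀ k, (fun y => w k y) = w k := fun _ => rfl
  simp only [wk, gk, hv, hlap, heta]
  have hw' : ∀ k, ContDiff ℝ ∞ (w k) := hw
  have hq : ContDiff ℝ ∞ fun y => M.muC y / (M.AC y + M.muC y) := by
    simp only [div_eq_mul_inv]
    exact hmu.mul ((hA.add hmu).inv M.AC_add_muC_ne)
  simp (disch := first | exact M.AC_add_muC_ne | exact hw' _ | fun_prop) only [pdf_add, pdf_sub, pdf_mul, pdf_div,
    M.pd_cC, M.pd_AC]
  simp only [pd_const, zero_mul, zero_add, M.cC_eq, pd_mC, pd_nC, pd_sqC]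
  simp only [M.nC_eq, M.mC_eq, ← M.sqC_mul_sqC x]
  have h0 := M.sqC_ne x
  have h1 := M.AC_add_muC_ne x
  rw [← M.sqC_mul_sqC x, ← pow_two] at h1
  have c3 : ∀ {f : Space → ℂ}, ContDiff ℝ ∞ f → ∀ a, pd a (pd a (pd i f)) x = pd i (pd a (pd a f)) x := by
    intro f hf a
    rw [pd_comm (contDiff_pd hf a) i a]
    exact congrArg (fun q => pd a q x) (funext fun y => pd_comm hf a i)
  have c2 : ∀ {f : Space → ℂ}, ContDiff ℝ ∞ f → ∀ a, pd a (pd i f) x = pd i (pd a f) x :=
    fun hf a => pd_comm hf a i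
  simp only [c3 hg 0, c3 hg 1, c3 hg 2, c3 hm 0, c3 hm 1, c3 hm 2, c2 hg 0, c2 hg 1, c2 hg 2,
    c2 hm 0, c2 hm 1, c2 hm 2, c2 hn 0, c2 hn 1, c2 hn 2]
  field_simp
  ring

end Moduli

end

end Vale.Agent.P136.Full
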