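import Mathlib
import Vale.Agent.P136.Full.Spec
import Vale.Agent.P136.Full.Alg.Adjoint
import Vale.Agent.P136.Full.Form.Green

/-!
# P136: the leading amplitudes of exponential solutions solve the amplitude system
-/

open MeasureTheory Filter Set Metric
open scoped Topology ContDiff

namespace Vale.Agent.P136.Full

noncomputable section

theorem pd_congr_on {E : Type*} [NormedAddCommGroup E] [NormedSpace ℂ E] {s : Set Space}
    (hs : IsOpen s) {f g : Space → E} (h : ∀ y ∈ s, f y = g y) {x : Space} (hx : x ∈ s) (i : Fin 3) :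
    pd i f x = pd i g x :=
  pd_congr (Filter.eventually_of_mem (hs.mem_nhds hx) h) i

theorem pd_eq_zero_on {E : Type*} [NormedAddCommGroup E] [NormedSpace ℂ E] {s : Set Space}
    (hs : IsOpen s) {f : Space → E} (h : ∀ y ∈ s, f y = 0) {x : Space} (hx : x ∈ s) (i : Fin 3) :
    pd i f x = 0 := by
  rw [pd_congr_on hs (g := fun _ => 0) h hx i, pd_const]

theorem Dth_congr_on {E : Type*} [NormedAddCommGroup E] [NormedSpace ℂ E] {s : Set Space}
    (hs : IsOpen s) {f g : Space → E} (h : ∀ y ∈ s, f y = g y) {x : Space} (hx : x ∈ s) (θ : C3) :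
    Dth θ f x = Dth θ g x := by
  simp only [Dth, pd_congr_on hs h hx]

theorem Dth_three (θ : C3) (f : Space → ℂ) (x : Space) :
    Dth θ f x = θ 0 * pd 0 f x + θ 1 * pd 1 f x + θ 2 * pd 2 f x := by
  simp [Dth, Fin.sum_univ_three]

theorem pd_sum_three {a b c : Space → ℂ} {x : Space} (i : Fin 3) (ha : DifferentiableAt ℝ a x)
    (hb : DifferentiableAt ℝ b x) (hc : DifferentiableAt ℝ c x) :
    pd i (fun y => a y + b y + c y) x = pd i a x + pd i b x + pd i c x := by
  rw [pd_add i (ha.fun_add hb) hc, pd_add i ha hb]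

theorem pd_const_mul {a : Space → ℂ} {x : Space} (i : Fin 3) (c : ℂ) (ha : DifferentiableAt ℝ a x) :
    pd i (fun y => c * a y) x = c * pd i a x := by
  simpa using pd_const_smul i c ha

theorem Moduli.contDiff_lead (M : Moduli) (θ : C3) {Y₀ Y₁ : Space → Amp} (h₀ : ContDiff ℝ ∞ Y₀)
    (h₁ : ContDiff ℝ ∞ Y₁) : ContDiff ℝ ∞ (M.lead θ Y₀ Y₁) := by
  have hW : ContDiff ℝ ∞ fun y => M.nC y • (Y₀ y).1 + (M.mC y * (Y₁ y).2) • θ :=
    (M.contDiff_nC.smul h₀.fst).add ((M.contDiff_mC.mul h₁.snd).smul contDiff_const)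
  exact hW.prodMk ((contDiff_bdot contDiff_const (M.contDiff_disp h₁)).add (contDiff_divv hW))

theorem Realised.smooth {M : Moduli} {θ : C3} {R : ℝ} {Y : Space → Amp} (h : Realised M θ R Y) :
    ContDiff ℝ ∞ Y := by
  obtain ⟨Y₀, Y₁, h₀, h₁, -, rfl⟩ := h
  exact M.contDiff_lead θ h₀ h₁

theorem Realised.perp {M : Moduli} {θ : C3} {R : ℝ} {Y : Space → Amp} (hθ : bdot θ θ = 0)
    (h : Realised M θ R Y) {x : Space} (hx : x ∈ ball (0 : Space) R) : bdot θ (Y x).1 = 0 := by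
  obtain ⟨Y₀, Y₁, -, -, hb, rfl⟩ := h
  simp only [Moduli.lead, bdot_add_right, bdot_smul_right, (hb x hx).1, hθ, mul_zero, add_zero]

set_option maxHeartbeats 1000000 in
/-- The leading amplitude solves the amplitude system. -/
theorem Realised.eqn {M : Moduli} {θ : C3} {R : ℝ} {Y : Space → Amp} (hθ : bdot θ θ = 0)
    (h : Realised M θ R Y) {x : Space} (hx : x ∈ ball (0 : Space) R) :
    Dth θ Y x = M.amat θ x (Y x) := by
  have hperp : bdot θ (Y x).1 = 0 := h.perp hθ hx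
  have hYd : DifferentiableAt ℝ Y x := h.smooth.differentiable (by simp) x
  obtain ⟨Y₀, Y₁, h₀, h₁, hb, rfl⟩ := h
  have d : ∀ {f : Space → ℂ}, ContDiff ℝ ∞ f → ∀ y, DifferentiableAt ℝ f y :=
    fun h y => h.differentiable (by simp) y
  have p := @contDiff_pd ℂ _ _
  set B := ball (0 : Space) R with hB
  have oB : IsOpen B := isOpen_ball
  set r : Fin 3 → Space → ℂ := fun k y => (Y₀ y).1 k with hrdef
  set g : Space → ℂ := fun y => (Y₀ y).2 with hgdef
  set u : Fin 3 → Space → ℂ := fun k y => (Y₁ y).1 k with hudef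
  set s : Space → ℂ := fun y => (Y₁ y).2 with hsdef
  set n : Space → ℂ := M.nC with hndef
  have cr : ∀ k, ContDiff ℝ ∞ (r k) := fun k => contDiff_pi.1 h₀.fst k
  have cg : ContDiff ℝ ∞ g := h₀.snd
  have cu : ∀ k, ContDiff ℝ ∞ (u k) := fun k => contDiff_pi.1 h₁.fst k
  have cs : ContDiff ℝ ∞ s := h₁.snd
  have cn : ContDiff ℝ ∞ n := M.contDiff_nC
  have cm := M.contDiff_mC
  set q : Space → ℂ := fun y => θ 0 * u 0 y + θ 1 * u 1 y + θ 2 * u 2 y with hqdef
  set e : Space → ℂ := fun y => pd 0 (r 0) y + pd 1 (r 1) y + pd 2 (r 2) y with hedef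
  set w : Space → ℂ := fun y => pd 0 n y * r 0 y + pd 1 n y * r 1 y + pd 2 n y * r 2 y with hwdef
  have cq : ContDiff ℝ ∞ q := by rw [hqdef]; fun_prop
  have ce : ContDiff ℝ ∞ e := ((p (cr 0) 0).add (p (cr 1) 1)).add (p (cr 2) 2)
  have cw : ContDiff ℝ ∞ w :=
    (((p cn 0).mul (cr 0)).add ((p cn 1).mul (cr 1))).add ((p cn 2).mul (cr 2))
  have hr : ∀ y ∈ B, θ 0 * r 0 y + θ 1 * r 1 y + θ 2 * r 2 y = 0 := fun y hy => by
    have := (hb y hy).1
    rwa [bdot_three] at this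
  have hg : ∀ y ∈ B, g y = 0 := fun y hy => (hb y hy).2.1
  have hg1 : ∀ y ∈ B, ∀ i, pd i g y = 0 := fun y hy i => pd_eq_zero_on oB hg hy i
  have hg2 : ∀ y ∈ B, ∀ i j, pd j (pd i g) y = 0 := fun y hy i j =>
    pd_eq_zero_on oB (fun z hz => hg1 z hz i) hy j
  have hDr : ∀ y ∈ B, ∀ k, Dth θ (r k) y = 0 := fun y hy k => by
    have h := congrFun (congrArg Prod.fst (hb y hy).2.2.1) k
    have e1 : Dth θ (fun z => (Y₀ z).1) y k = Dth θ (r k) y :=
      (Dth_apply θ k (h₀.fst.differentiable (by simp) y)).symm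
    simp only [Moduli.transport, Pi.sub_apply, Pi.smul_apply, smul_eq_mul, e1, (hb y hy).1,
      (hb y hy).2.1, Prod.fst_zero, Pi.zero_apply, mul_zero, zero_mul, sub_zero] at h
    simpa using h
  have e2 : ∀ (U : Space → Amp), ContDiff ℝ ∞ U → ∀ (a b k : Fin 3) y,
      pd a (pd b fun z => (U z).1) y k = pd a (pd b fun z => (U z).1 k) y := by
    intro U hU a b k y
    rw [← pd_apply a k ((contDiff_pd hU.fst b).differentiable (by simp) y)]
    exact congrArg (fun f => pd a f y)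
      (funext fun z => (pd_apply b k (hU.fst.differentiable (by simp) z)).symm)
  have h2 : ∀ y ∈ B, 2 * Dth θ s y = -(M.cC y * (q y + e y)) -
      M.muC y / (M.AC y + M.muC y) * ((M.AC y - 2 * M.muC y) * w y) := fun y hy => by
    have h := congrArg Prod.snd (hb y hy).2.2.2
    simp only [Moduli.reduced, Moduli.transport, Prod.snd_add, lap, divv, grad, bdot_three,
      Fin.sum_univ_three, Prod.snd_zero] at h
    change pd 0 (pd 0 g) y + pd 1 (pd 1 g) y + pd 2 (pd 2 g) y + M.cC y * e y +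
      M.muC y / (M.AC y + M.muC y) * ((M.AC y - 2 * M.muC y) * w y +
        (M.muC y - M.AC y) * (pd 0 (pd 0 M.mC) y + pd 1 (pd 1 M.mC) y + pd 2 (pd 2 M.mC) y) * g y) +
      (2 * Dth θ s y + M.cC y * q y) = 0 at h
    rw [hg2 y hy, hg2 y hy, hg2 y hy, hg y hy] at h
    linear_combination h
  have hPi : ∀ y ∈ B, (M.AC y + M.muC y) * (M.lead θ Y₀ Y₁ y).2 =
      M.sqC y * (q y + e y) + 3 * M.muC y * w y := fun y hy => by
    have hW : ∀ k, pd k (fun z => (M.nC z • (Y₀ z).1 + (M.mC z * (Y₁ z).2) • θ) k) y =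
        pd k n y * r k y + n y * pd k (r k) y +
          (pd k M.mC y * s y + M.mC y * pd k s y) * θ k := fun k => by
      have e3 : (fun z => (M.nC z • (Y₀ z).1 + (M.mC z * (Y₁ z).2) • θ) k) =
          fun z => n z * r k z + θ k * (M.mC z * s z) := funext fun z => by
        simp only [Pi.add_apply, Pi.smul_apply, smul_eq_mul, hndef, hrdef, hsdef]; ring
      rw [e3, pd_add k ((d cn y).fun_mul (d (cr k) y))
          (((d cm y).fun_mul (d cs y)).const_mul _), pd_mul k (d cn y) (d (cr k) y),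
        pd_const_mul k _ ((d cm y).fun_mul (d cs y)), pd_mul k (d cm y) (d cs y)]
      ring
    have h := h2 y hy
    simp only [Moduli.lead, divv, Fin.sum_univ_three]
    rw [hW 0, hW 1, hW 2]
    simp only [Moduli.disp, grad, bdot_three, Pi.add_apply, Pi.sub_apply, Pi.smul_apply,
      smul_eq_mul]
    change (M.AC y + M.muC y) * (θ 0 * (n y * u 0 y + M.mC y * pd 0 s y - s y * pd 0 M.mC y) +
      θ 1 * (n y * u 1 y + M.mC y * pd 1 s y - s y * pd 1 M.mC y) +
      θ 2 * (n y * u 2 y + M.mC y * pd 2 s y - s y * pd 2 M.mC y) + _) = _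
    simp only [Dth_three, hqdef, hedef, hwdef, M.cC_eq] at h ⊢
    simp only [hndef, M.nC_eq, M.mC_eq, ← M.sqC_mul_sqC y] at h ⊢
    have n0 := M.sqC_ne y
    have n1 := M.AC_add_muC_ne y
    rw [← M.sqC_mul_sqC y, ← pow_two] at n1
    field_simp at h ⊢
    linear_combination h
  have hDe : Dth θ e x = 0 := by
    have e3 : ∀ k, θ 0 * pd 0 (pd k (r k)) x + θ 1 * pd 1 (pd k (r k)) x +
        θ 2 * pd 2 (pd k (r k)) x = 0 := fun k => by
      have hz := pd_eq_zero_on oB (fun y hy => hDr y hy k) hx k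
      rw [show Dth θ (r k) = fun y => θ 0 * pd 0 (r k) y + θ 1 * pd 1 (r k) y + θ 2 * pd 2 (r k) y
          from funext fun y => Dth_three θ _ y,
        pd_sum_three k ((d (p (cr k) 0) x).const_mul _) ((d (p (cr k) 1) x).const_mul _)
          ((d (p (cr k) 2) x).const_mul _), pd_const_mul k _ (d (p (cr k) 0) x),
        pd_const_mul k _ (d (p (cr k) 1) x), pd_const_mul k _ (d (p (cr k) 2) x)] at hz
      rwa [pd_comm (cr k) 0 k, pd_comm (cr k) 1 k, pd_comm (cr k) 2 k]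
    rw [Dth_three, hedef]
    simp only [pd_sum_three _ (d (p (cr 0) 0) x) (d (p (cr 1) 1) x) (d (p (cr 2) 2) x)]
    linear_combination e3 0 + e3 1 + e3 2
  set K : ℂ := Dth θ (pd 0 n) x * r 0 x + Dth θ (pd 1 n) x * r 1 x + Dth θ (pd 2 n) x * r 2 x
    with hK
  set J : ℂ := θ 0 * Dth θ (pd 0 M.mC) x + θ 1 * Dth θ (pd 1 M.mC) x + θ 2 * Dth θ (pd 2 M.mC) x
    with hJ
  have hDw : Dth θ w x = K := by
    rw [hwdef, Dth_add θ (((d (p cn 0) x).fun_mul (d (cr 0) x)).fun_add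
        ((d (p cn 1) x).fun_mul (d (cr 1) x))) ((d (p cn 2) x).fun_mul (d (cr 2) x)),
      Dth_add θ ((d (p cn 0) x).fun_mul (d (cr 0) x)) ((d (p cn 1) x).fun_mul (d (cr 1) x)),
      Dth_mul θ (d (p cn 0) x) (d (cr 0) x), Dth_mul θ (d (p cn 1) x) (d (cr 1) x),
      Dth_mul θ (d (p cn 2) x) (d (cr 2) x), hDr x hx 0, hDr x hx 1, hDr x hx 2, hK]
    ring
  have hpn : ∀ i y, pd i M.muC y = -(2 * M.muC y * M.sqC y * pd i n y) := fun i y => by
    rw [hndef, M.pd_nC]
    have := M.sqC_ne y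
    have := M.muC_ne y
    field_simp
  have hpm : ∀ i, pd i M.mC = fun y => 2 * (n y * pd i n y) := fun i => funext fun y => by
    have e3 : M.mC = fun z => n z * n z := funext fun z => by
      rw [hndef, M.nC_eq, M.mC_eq, ← mul_inv, M.sqC_mul_sqC]
    rw [e3, pd_mul i (d cn y) (d cn y)]; ring
  have hDm : ∀ i, Dth θ (pd i M.mC) x =
      2 * (Dth θ n x * pd i n x + n x * Dth θ (pd i n) x) := fun i => by
    rw [hpm i, Dth_three, pd_const_mul _ _ ((d cn x).fun_mul (d (p cn i) x)),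
      pd_const_mul _ _ ((d cn x).fun_mul (d (p cn i) x)),
      pd_const_mul _ _ ((d cn x).fun_mul (d (p cn i) x)),
      pd_mul _ (d cn x) (d (p cn i) x), pd_mul _ (d cn x) (d (p cn i) x),
      pd_mul _ (d cn x) (d (p cn i) x), Dth_three, Dth_three]
    ring
  have hDmu : Dth θ M.muC x = -(2 * M.muC x * M.sqC x * Dth θ n x) := by
    rw [Dth_three, Dth_three, hpn, hpn, hpn]; ring
  have hlr : ∀ a, θ 0 * pd a (pd a (r 0)) x + θ 1 * pd a (pd a (r 1)) x +
      θ 2 * pd a (pd a (r 2)) x = 0 := fun a => by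
    have hz : ∀ y ∈ B, θ 0 * pd a (r 0) y + θ 1 * pd a (r 1) y + θ 2 * pd a (r 2) y = 0 :=
      fun y hy => by
        have hz := pd_eq_zero_on oB hr hy a
        rwa [pd_sum_three a ((d (cr 0) y).const_mul _) ((d (cr 1) y).const_mul _)
          ((d (cr 2) y).const_mul _), pd_const_mul a _ (d (cr 0) y),
          pd_const_mul a _ (d (cr 1) y), pd_const_mul a _ (d (cr 2) y)] at hz
    have hz2 := pd_eq_zero_on oB hz hx a
    rwa [pd_sum_three a ((d (p (cr 0) a) x).const_mul _) ((d (p (cr 1) a) x).const_mul _)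
      ((d (p (cr 2) a) x).const_mul _), pd_const_mul a _ (d (p (cr 0) a) x),
      pd_const_mul a _ (d (p (cr 1) a) x), pd_const_mul a _ (d (p (cr 2) a) x)] at hz2
  have h1 : 2 * Dth θ q x = 2 * M.sqC x * s x * J + (q x + e x) * M.mC x * Dth θ M.muC x -
      (M.sqC x)⁻¹ * (2 * M.muC x * K + 2 * w x * Dth θ M.muC x) := by
    have hv := congrArg Prod.fst (hb x hx).2.2.2
    have c0 := congrFun hv 0
    have c1 := congrFun hv 1
    have c2 := congrFun hv 2
    have eu : ∀ k, Dth θ (fun z => (Y₁ z).1) x k = Dth θ (u k) x := fun k =>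
      (Dth_apply θ k (h₁.fst.differentiable (by simp) x)).symm
    simp only [Moduli.reduced, Moduli.transport, Prod.fst_add, Pi.add_apply, Pi.sub_apply,
      Pi.smul_apply, smul_eq_mul, Prod.fst_zero, Pi.zero_apply, lap, divv, hessVec, hess, grad,
      bdot_three, Fin.sum_univ_three, e2 Y₀ h₀, eu] at c0 c1 c2
    have gz : ∀ i, pd i (fun y => (Y₀ y).2) x = 0 := fun i => hg1 x hx i
    simp only [gz, (hb x hx).2.1, mul_zero, zero_div, zero_mul, add_zero, sub_zero] at c0 c1 c2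
    have eq1 : Dth θ q x = θ 0 * Dth θ (u 0) x + θ 1 * Dth θ (u 1) x + θ 2 * Dth θ (u 2) x := by
      simp only [Dth_three, hqdef, pd_sum_three _ ((d (cu 0) x).const_mul _)
        ((d (cu 1) x).const_mul _) ((d (cu 2) x).const_mul _), pd_const_mul _ _ (d (cu 0) x),
        pd_const_mul _ _ (d (cu 1) x), pd_const_mul _ _ (d (cu 2) x)]
      ring
    rw [eq1, hK, hJ]
    simp only [Dth_three, hqdef, hedef, hwdef] at c0 c1 c2 ⊢
    simp only [hrdef, hudef, hsdef, hndef] at c0 c1 c2 hlr ⊢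
    simp only [pd_comm M.contDiff_nC 1 0, pd_comm M.contDiff_nC 2 0, pd_comm M.contDiff_nC 2 1]
      at c0 c1 c2 ⊢
    have r0 := (hb x hx).1
    rw [bdot_three] at r0
    linear_combination θ 0 * c0 + θ 1 * c1 + θ 2 * c2 - hlr 0 - hlr 1 - hlr 2 -
      (M.sqC x)⁻¹ * (M.muC x * (pd 0 (pd 0 M.nC) x + pd 1 (pd 1 M.nC) x + pd 2 (pd 2 M.nC) x) +
        (pd 0 M.nC x * pd 0 M.muC x + pd 1 M.nC x * pd 1 M.muC x + pd 2 M.nC x * pd 2 M.muC x)) * r0
  refine Prod.ext ?_ ?_
  · funext i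
    rw [← Dth_fst θ hYd, ← Dth_apply θ i hYd.fst]
    have e3 : (fun z => (M.lead θ Y₀ Y₁ z).1 i) =
        fun z => n z * r i z + θ i * (M.mC z * s z) := funext fun z => by
      simp only [Moduli.lead, Pi.add_apply, Pi.smul_apply, smul_eq_mul, hndef, hrdef, hsdef]; ring
    have hmn : Dth θ M.mC x = 2 * n x * Dth θ n x := by
      rw [Dth_three, hpm, hpm, hpm, Dth_three]; ring
    rw [e3, Dth_add θ ((d cn x).fun_mul (d (cr i) x)) (((d cm x).fun_mul (d cs x)).const_mul _),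
      Dth_mul θ (d cn x) (d (cr i) x), hDr x hx i,
      show Dth θ (fun z => θ i * (M.mC z * s z)) x =
        θ i * (Dth θ M.mC x * s x + M.mC x * Dth θ s x) from
        (Dth_const_smul θ (θ i) ((d cm x).fun_mul (d cs x))).trans
          (by rw [Dth_mul θ (d cm x) (d cs x), smul_eq_mul]), hmn]
    simp only [Moduli.amat, Pi.sub_apply, Pi.smul_apply, smul_eq_mul, grad, bdot_three, hpn, hDmu]
    have hP := hPi x hx
    have hs2 := h2 x hx
    have hW0 : ∀ k, (M.lead θ Y₀ Y₁ x).1 k = n x * r k x + θ k * (M.mC x * s x) := fun k => by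
      simp only [Moduli.lead, Pi.add_apply, Pi.smul_apply, smul_eq_mul, hndef, hrdef, hsdef]; ring
    simp only [hW0]
    set Pv := (M.lead θ Y₀ Y₁ x).2
    simp only [Dth_three, hwdef, M.cC_eq] at hP hs2 ⊢
    simp only [hndef, M.nC_eq, M.mC_eq, ← M.sqC_mul_sqC x] at hP hs2 ⊢
    have n0 := M.sqC_ne x
    have n1 := M.AC_add_muC_ne x
    rw [← M.sqC_mul_sqC x, ← pow_two] at n1
    field_simp at hP hs2 ⊢
    set w' := pd 0 M.nC x * r 0 x + pd 1 M.nC x * r 1 x + pd 2 M.nC x * r 2 x with hw'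
    have key : 2 * (θ 0 * pd 0 s x + θ 1 * pd 1 s x + θ 2 * pd 2 s x) + M.AC x * Pv -
        2 * M.sqC x ^ 2 * w' = 0 := by
      apply mul_left_cancel₀ n1
      rw [mul_zero]
      linear_combination hs2 + M.AC x * hP
    rw [hw'] at key
    linear_combination θ i * key
  · rw [← Dth_snd θ hYd]
    have cP : ContDiff ℝ ∞ fun z => (M.lead θ Y₀ Y₁ z).2 := (M.contDiff_lead θ h₀ h₁).snd
    have cA := M.contDiff_AC
    have cmu := M.contDiff_muC
    have h3 := Dth_congr_on oB hPi hx θ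
    have hsq : Dth θ M.sqC x = Dth θ M.muC x / (2 * M.sqC x) := by
      simp only [Dth_three, M.pd_sqC]; ring
    rw [Dth_mul θ ((d cA x).fun_add (d cmu x)) (d cP x), Dth_add θ (d cA x) (d cmu x),
      Dth_add θ ((d M.contDiff_sqC x).fun_mul ((d cq x).fun_add (d ce x)))
        (((d cmu x).const_mul _).fun_mul (d cw x)),
      Dth_mul θ (d M.contDiff_sqC x) ((d cq x).fun_add (d ce x)), Dth_add θ (d cq x) (d ce x),
      Dth_mul θ ((d cmu x).const_mul _) (d cw x),
      show Dth θ (fun y => (3 : ℂ) * M.muC y) x = 3 * Dth θ M.muC x from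
        (Dth_const_smul θ (3 : ℂ) (d cmu x)).trans (smul_eq_mul _ _), hDe, hDw, hsq, hDmu] at h3
    have e3 : bdot (M.lead θ Y₀ Y₁ x).1 (hessVec M.mC x θ) =
        n x * (2 * (Dth θ n x * w x + n x * K)) + M.mC x * s x * J := by
      have hh : ∀ k, hessVec M.mC x θ k = Dth θ (pd k M.mC) x := fun k => by
        simp only [hessVec, hess, Fin.sum_univ_three, Dth_three]; ring
      simp only [bdot_three, hh, Moduli.lead, Pi.add_apply, Pi.smul_apply, smul_eq_mul, hJ, hK,
        hwdef, hrdef, hsdef, hndef, hDm]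
      ring
    simp only [Moduli.amat, e3, hDmu]
    have hP := hPi x hx
    rw [hDmu] at h1
    set Pv := (M.lead θ Y₀ Y₁ x).2
    set DP := Dth θ (fun z => (M.lead θ Y₀ Y₁ z).2) x
    simp only [hndef, M.nC_eq, M.mC_eq, ← M.sqC_mul_sqC x] at h1 h3 hP ⊢
    have n0 := M.sqC_ne x
    have n1 := M.AC_add_muC_ne x
    rw [← M.sqC_mul_sqC x, ← pow_two] at n1
    field_simp at h1 h3 hP ⊢
    linear_combination h3 + M.sqC x * h1 + 2 * M.sqC x * Dth θ M.nC x * hP

end

end Vale.Agent.P136.Full
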